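import Crest.Agent.X212.Tb46.Alg
import Crest.Agent.X212.Taub88.Tb
import Crest.Agent.X212.Met55.Path

/-! Row 212, TB-COMPAT (helper46): frames compatible with a symplectic form. -/

set_option autoImplicit false
set_option linter.unusedSectionVars false
noncomputable section
open scoped Manifold ContDiff Topology
open Finset Matrix

namespace Crest.Agent.X212.Tb46
open An Crest.Agent.R208.F Taub88 Met55 Pj41 Num57
open Eq82 (Bk)
open Wz78 (SA)

variable {E : Type} [NormedAddCommGroup E] [NormedSpace ℝ E] [FiniteDimensional ℝ E]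
  [MeasurableSpace E] [BorelSpace E]
  {HM : Type} [TopologicalSpace HM] {I : ModelWithCorners ℝ E HM} [I.Boundaryless]
  {M : Type} [TopologicalSpace M] [ChartedSpace HM M] [IsManifold I ∞ M]
  [MeasurableSpace M] [BorelSpace M] [SecondCountableTopology M] [T2Space M] [CompactSpace M]
  {ι : Type} [Fintype ι] [DecidableEq ι]

theorem e2_mix (c : Ext E) (S : Matrix ι ι ℝ) (v : ι → E) (a b : ι) :
    e2 c (mix S v a) (mix S v b) = (S * of (fun k l => e2 c (v k) (v l)) * Sᵀ) a b := by
  simp only [mix, e2_vsum, e2_vsum', mul_apply, of_apply, transpose_apply, mul_sum, sum_mul]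
  exact sum_congr rfl fun _ _ => sum_congr rfl fun _ _ => by ring

theorem sa_dot {A B : M → Matrix ι ι ℝ} {x : M} (hA : MSm I A x) (hB : MSm I B x) :
    SA I (fun y => dot (A y) (B y) / 4) x :=
  (SA.sum _ fun a _ => SA.sum _ fun b _ => SA.mul (hA a b) (hB a b)).div_const _

/-- **COMPAT** -/
theorem compat (X : Bk I M ι) : CompatStmt X := fun w hw => by
  let o : M → ι → ι → ι → ι → ℝ := fun x a b c d => X.o a b c d x
  let W : M → ι → ι → ℝ := fun x a b => k2 X.F w a b x
  have key : ∀ x, Two (fP X.F.e x) (mA (o x) (W x)) (mB (o x) (W x))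
      (dot (mA (o x) (W x)) (mA (o x) (W x)) / 4) (dot (mB (o x) (W x)) (mB (o x) (W x)) / 4) ∧
      SD (o x) (sdp (o x) (W x)) := fun x => by
    have v := X.ok.vo x
    obtain ⟨U, hU⟩ := Wz78.exists_on v.pr v.tr v.a1 v.a2 v.a3 v.po v.nm
    rw [← fP_fr]
    refine two hU v.pr ⟨fun a b => k2_swap X.F w b a x, fun a b => ?_⟩ ?_
    · simp only [W]
      rw [k2_swap, ← k2_P, ← sum_neg_distrib]
      exact sum_congr rfl fun k _ => by rw [k2_swap X.F w k a, X.F.P_symm k b]; ring
    · have := hw.pos x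
      rw [rat_vol_mul X.F X.ok.h4 (X.ok.vo' x) (hw.cl.dg x trivial)] at this
      refine (mul_pos two_pos this).trans_eq ?_
      simp only [dot, hs2, mul_sum, sum_mul, sum_div]
      rw [sum_congr rfl fun _ _ => sum_comm, sum_comm]
      refine sum_congr rfl fun c _ => ?_
      rw [sum_congr rfl fun _ _ => sum_comm, sum_comm]
      exact sum_congr rfl fun _ _ => sum_congr rfl fun _ _ => sum_congr rfl fun _ _ => by ring
  have sW : ∀ x, MSm I (fun y => of (W y)) x := fun x a b => sa_k2 X.F (hw.cl.sm x trivial) a b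
  have sA : ∀ x, MSm I (fun y => mA (o y) (W y)) x := fun x c d =>
    ((sW x c d).add ((SA.sum _ fun a _ => SA.sum _ fun b _ =>
      SA.mul (sW x a b) (X.ok.sm a b c d x)).div_const _)).div_const _
  have sB : ∀ x, MSm I (fun y => mB (o y) (W y)) x := fun x => (sW x).sub (sA x)
  let H : M → Matrix ι ι ℝ := fun x => Hm (fP X.F.e x) (mA (o x) (W x)) (mB (o x) (W x))
    (dot (mA (o x) (W x)) (mA (o x) (W x)) / 4) (dot (mB (o x) (W x)) (mB (o x) (W x)) / 4)
  have sH : ∀ x, MSm I H x := fun x => by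
    have sP := (pre_fAt X.F.toPre x).msm_fP
    have a := sa_dot (sA x) (sA x)
    have b := sa_dot (sB x) (sB x)
    refine (MSm.rsmul (ContMDiffAt.inv₀ (SA.mul ?_ (a.sub b)) (inv_pos.1 (key x).1.cpos).ne')
      ((MSm.rsmul a sP).add ((sA x).mul (sB x)))).add ((MSm.const 1).sub sP)
    exact ContDiffAt.comp_contMDiffAt (g := fun r : ℝ => √r) (x := x)
      (f := fun y => dot (mA (o y) (W y)) (mA (o y) (W y)) / 4)
      (Real.contDiffAt_sqrt (key x).1.pos.ne') a
  have fa : ∀ x, FAt (dfm H X.F.e) x := fun x => (pre_fAt X.F.toPre x).dfm (sH x) (key x).1.adm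
    (.of_forall fun y => (key y).1.adm.symm)
  have e : ∀ x, (fun a b => k2 (rFr _ fa) w a b x) =
      (√(dot (mA (o x) (W x)) (mA (o x) (W x)) / 4))⁻¹ • mA (o x) (W x) := fun x => by
    funext a b
    rw [← (key x).1.conj, add_sub_cancel]
    nth_rw 2 [← (key x).1.adm.sq.symm]
    exact e2_mix (w x) _ (atx X.F.e x) a b
  refine ⟨rFr _ fa, pos_dfm sH (fun x => (key x).1.adm) (rFr_vol _ _) rfl, fun x => ?_, fun x => ?_,
    fun x => ⟨_, Real.sqrt_pos.2 (key x).1.pos, funext₂ fun a b => ?_⟩⟩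
  · rw [e]
    have := (key x).1.cx
    rwa [← fP_fr] at this
  · rw [e]
    funext c d
    have := congrFun (congrFun (key x).2 c) d
    simp only [hs2, Matrix.smul_apply, smul_eq_mul, mul_assoc, ← mul_sum, mul_div_assoc, of_apply]
      at this ⊢
    rw [this]
  · rw [congrFun (congrFun (e x) a) b, Matrix.smul_apply, smul_eq_mul,
      mul_inv_cancel_left₀ (Real.sqrt_pos.2 (key x).1.pos).ne']
    rfl

end Crest.Agent.X212.Tb46
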