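import Crest.Agent.X212.Taub88.Spn
import Crest.Agent.X212.Met55.Co

/-! Row 212, TB-COMPAT (helper46): the polar decomposition of a positive two-form. -/

set_option autoImplicit false
set_option linter.unusedSectionVars false
noncomputable section
open Finset Matrix

namespace Crest.Agent.X212.Tb46
open Taub88 Wz78 Met55

variable {ι : Type*} [Fintype ι] [DecidableEq ι]

/-- a commuting pair of skew conformal maps of the range of `P` -/
structure Two (P A B : Matrix ι ι ℝ) (α β : ℝ) : Prop where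
  Pt : Pᵀ = P
  PP : P * P = P
  At : Aᵀ = -A
  Bt : Bᵀ = -B
  PA : P * A = A
  AP : A * P = A
  PB : P * B = B
  BP : B * P = B
  AA : A * A = -(α • P)
  BB : B * B = -(β • P)
  AB : B * A = A * B
  nn : 0 ≤ β
  lt : β < α

/-- the deformation -/
def Hm (P A B : Matrix ι ι ℝ) (α β : ℝ) : Matrix ι ι ℝ :=
  (√α * (α - β))⁻¹ • (α • P + A * B) + (1 - P)

namespace Two
variable {P A B : Matrix ι ι ℝ} {α β : ℝ} (h : Two P A B α β)
include h

theorem pos : 0 < α := h.nn.trans_lt h.lt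

theorem cpos : 0 < (√α * (α - β))⁻¹ :=
  inv_pos.2 (mul_pos (Real.sqrt_pos.2 h.pos) (sub_pos.2 h.lt))

theorem adm : Adm P (Hm P A B α β) := by
  refine ⟨?_, ?_⟩
  · set c := (√α * (α - β))⁻¹ with hc
    have c0 : 0 < c := h.cpos
    have t0 : 0 < c * (α - β) / 2 := half_pos (mul_pos c0 (sub_pos.2 h.lt))
    set t := c * (α - β) / 2 with ht
    have e : Hm P A B α β = min t 1 • (1 : Matrix ι ι ℝ) + ((c / 2) • ((A - B)ᴴ * (A - B)) +
        ((t - min t 1) • (Pᴴ * P) + (1 - min t 1) • ((1 - P)ᴴ * (1 - P)))) := by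
      simp only [conjTranspose_eq_transpose_of_trivial, transpose_sub, transpose_one, h.Pt, h.At,
        h.Bt, Matrix.sub_mul, Matrix.mul_sub, Matrix.neg_mul, h.AA, h.BB, h.AB, h.PP,
        Matrix.mul_one, Matrix.one_mul, Hm, ← hc]
      rw [ht]; module
    rw [e]
    refine (PosDef.one.smul (lt_min t0 one_pos)).add_posSemidef
      (((posSemidef_conjTranspose_mul_self _).smul (half_pos c0).le).add
        (((posSemidef_conjTranspose_mul_self _).smul (sub_nonneg.2 (min_le_left _ _))).add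
          ((posSemidef_conjTranspose_mul_self _).smul (sub_nonneg.2 (min_le_right _ _)))))
  · simp only [Hm, Matrix.add_mul, Matrix.mul_add, Matrix.sub_mul, Matrix.mul_sub, Matrix.smul_mul,
      Matrix.mul_smul, h.PP, Matrix.mul_assoc, h.BP, Matrix.one_mul, Matrix.mul_one]
    rw [← Matrix.mul_assoc, h.PA]

theorem comA : Hm P A B α β * A = A * Hm P A B α β := by
  simp only [Hm, Matrix.add_mul, Matrix.mul_add, Matrix.sub_mul, Matrix.mul_sub, Matrix.smul_mul,
    Matrix.mul_smul, Matrix.mul_assoc, h.PA, h.AP, h.AB, Matrix.one_mul, Matrix.mul_one]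

theorem comB : Hm P A B α β * B = B * Hm P A B α β := by
  simp only [Hm, Matrix.add_mul, Matrix.mul_add, Matrix.sub_mul, Matrix.mul_sub, Matrix.smul_mul,
    Matrix.mul_smul, Matrix.mul_assoc, h.PB, h.BP, Matrix.one_mul, Matrix.mul_one]
  rw [← Matrix.mul_assoc B, h.AB, Matrix.mul_assoc]

theorem mulH : (A + B) * Hm P A B α β = (√α)⁻¹ • A := by
  have e1 : A * (A * B) = -(α • B) := by
    rw [← Matrix.mul_assoc, h.AA, Matrix.neg_mul, Matrix.smul_mul, h.PB]
  have e2 : B * (A * B) = -(β • A) := by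
    rw [← Matrix.mul_assoc, h.AB, Matrix.mul_assoc, h.BB, Matrix.mul_neg, Matrix.mul_smul, h.AP]
  have e3 : (√α)⁻¹ = (√α * (α - β))⁻¹ * (α - β) := by
    have := (sub_pos.2 h.lt).ne'
    have := (Real.sqrt_pos.2 h.pos).ne'
    field_simp
  simp only [Hm, Matrix.add_mul, Matrix.mul_add, Matrix.mul_sub, Matrix.mul_smul, h.AP, h.BP,
    Matrix.mul_one, e1, e2]
  rw [e3]; module

theorem conj : Met55.sq (Hm P A B α β) * (A + B) * Met55.sq (Hm P A B α β) = (√α)⁻¹ • A := by
  rw [sq_comm h.adm.pos (Q := A + B) (by rw [Matrix.mul_add, Matrix.add_mul, h.comA, h.comB]),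
    Matrix.mul_assoc, sq_mul_sq h.adm.pos, h.mulH]

theorem cx : Cx P ((√α)⁻¹ • A : Matrix ι ι ℝ) := by
  refine ⟨fun a b => ?_, fun a b => ?_, fun a b => ?_⟩
  · have := congrFun (congrFun h.At b) a
    simp only [transpose_apply, Matrix.neg_apply] at this
    simp [this]
  · rw [← mul_apply, Matrix.smul_mul, h.AP]
  · have e : (√α)⁻¹ * ((√α)⁻¹ * α) = 1 := by
      have := (Real.sqrt_pos.2 h.pos).ne'
      field_simp
      exact (Real.sq_sqrt h.pos.le).symm
    rw [← mul_apply, Matrix.smul_mul, Matrix.mul_smul, h.AA]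
    simp only [smul_neg, smul_smul, e, one_smul, Matrix.neg_apply]

end Two

/-- the tensor with given frame components -/
def lf (U : Fin 4 → ι → ℝ) (Z : Matrix (Fin 4) (Fin 4) ℝ) : Matrix ι ι ℝ := (of U)ᵀ * Z * of U

variable {P X : ι → ι → ℝ} {o : ι → ι → ι → ι → ℝ} {U : Fin 4 → ι → ℝ}

theorem lf_eq (Z : Matrix (Fin 4) (Fin 4) ℝ) :
    (fun c d => ∑ k, ∑ l, Z k l * (U k c * U l d)) = lf U Z := by
  funext c d
  simp only [lf, mul_apply, transpose_apply, of_apply, sum_mul]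
  rw [sum_comm]
  exact sum_congr rfl fun _ _ => sum_congr rfl fun _ _ => by ring

theorem uu (h : On0 P U) : of U * (of U)ᵀ = 1 := by
  ext i j; simp [mul_apply, h.on, one_apply]

theorem lf_one (h : On0 P U) : lf U 1 = of P := by
  ext a b; simp [lf, mul_apply, h.pr]

theorem lf_mul (h : On0 P U) (Z W : Matrix (Fin 4) (Fin 4) ℝ) : lf U Z * lf U W = lf U (Z * W) := by
  simp only [lf, Matrix.mul_assoc]
  rw [← Matrix.mul_assoc (of U), ← Matrix.mul_assoc (of U * _), uu h, Matrix.one_mul]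

theorem lf_t (Z : Matrix (Fin 4) (Fin 4) ℝ) : (lf U Z)ᵀ = lf U Zᵀ := by
  simp [lf, transpose_mul, Matrix.mul_assoc]

theorem fc_lf (h : On0 P U) (Z : Matrix (Fin 4) (Fin 4) ℝ) : fc U (lf U Z) = Z := by
  have e : of U * lf U Z * (of U)ᵀ = Z := by
    simp only [lf, Matrix.mul_assoc]
    rw [uu h, Matrix.mul_one, ← Matrix.mul_assoc, uu h, Matrix.one_mul]
  funext i j
  rw [← congrFun (congrFun e i) j]
  simp only [fc, mul_apply (M := of U * lf U Z), mul_apply (M := of U), transpose_apply, of_apply,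
    sum_mul]
  rw [sum_comm]
  exact sum_congr rfl fun _ _ => sum_congr rfl fun _ _ => by ring

theorem dot_lf (h : On0 P U) (Z W : Matrix (Fin 4) (Fin 4) ℝ) :
    dot (lf U Z) (lf U W) = dot Z W := by
  rw [← lf_eq W, dot_fc, fc_lf h]

/-- self-dual matrices -/
def Ap (p q r : ℝ) : Matrix (Fin 4) (Fin 4) ℝ := !![0, p, q, r; -p, 0, r, -q; -q, -r, 0, p; -r, q, -p, 0]
/-- anti-self-dual matrices -/
def Am (p q r : ℝ) : Matrix (Fin 4) (Fin 4) ℝ := !![0, p, q, r; -p, 0, -r, q; -q, r, 0, -p; -r, -q, p, 0]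

theorem hs2_lf (h : On P o U) (p q r s t u : ℝ) :
    hs2 o (lf U (Ap p q r + Am s t u)) = lf U (Ap p q r - Am s t u) := by
  rw [hs2_fc h, fc_lf h.toOn0, ← lf_eq]
  funext c d
  refine sum_congr rfl fun k _ => sum_congr rfl fun l _ => congrArg (· * _) ?_
  fin_cases k <;> fin_cases l <;> simp [Fin.sum_univ_four, Ind95.eps, Ind95.sg, Ap, Am] <;> ring

/-- the self-dual part as a matrix -/
abbrev mA (o : ι → ι → ι → ι → ℝ) (X : ι → ι → ℝ) : Matrix ι ι ℝ := of (sdp o X)
/-- the anti-self-dual part as a matrix -/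
abbrev mB (o : ι → ι → ι → ι → ℝ) (X : ι → ι → ℝ) : Matrix ι ι ℝ := of X - mA o X

theorem two (h : On P o U) (hP : Pr P) (hX : Sk P X) (h0 : 0 < dot (hs2 o X) X) :
    Two (of P) (mA o X) (mB o X) (dot (mA o X) (mA o X) / 4) (dot (mB o X) (mB o X) / 4) ∧
      SD o (sdp o X) := by
  obtain ⟨p, q, r, s, t, u, rfl⟩ : ∃ p q r s t u, X = lf U (Ap p q r + Am s t u) := by
    have x := fc_skew (U := U) hX.skew
    have d : ∀ a, fc U X a a = 0 := fun a => by linarith [x a a]
    refine ⟨(fc U X 0 1 + fc U X 2 3) / 2, (fc U X 0 2 - fc U X 1 3) / 2,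
      (fc U X 0 3 + fc U X 1 2) / 2, (fc U X 0 1 - fc U X 2 3) / 2, (fc U X 0 2 + fc U X 1 3) / 2,
      (fc U X 0 3 - fc U X 1 2) / 2, (hX.fc h.toOn0 hP).symm.trans ((lf_eq (of (fc U X))).trans
        (congrArg _ ?_))⟩
    ext k l
    fin_cases k <;> fin_cases l <;>
      simp [Ap, Am, d, x 1 0, x 2 0, x 3 0, x 2 1, x 3 1, x 3 2] <;> ring
  have a : mA o (lf U (Ap p q r + Am s t u)) = lf U (Ap p q r) := by
    ext c d
    simp only [of_apply, sdp, hs2_lf h]
    simp only [lf, Matrix.mul_add, Matrix.add_mul, Matrix.mul_sub, Matrix.sub_mul, Matrix.add_apply,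
      Matrix.sub_apply]
    ring
  have b : mB o (lf U (Ap p q r + Am s t u)) = lf U (Am s t u) := by
    rw [mB, a]
    change lf U _ - _ = _
    simp only [lf, Matrix.mul_add, Matrix.add_mul, add_sub_cancel_left]
  have da : dot (Ap p q r) (Ap p q r) / 4 = p ^ 2 + q ^ 2 + r ^ 2 := by
    simp [dot, Fin.sum_univ_four, Ap]; ring
  have db : dot (Am s t u) (Am s t u) / 4 = s ^ 2 + t ^ 2 + u ^ 2 := by
    simp [dot, Fin.sum_univ_four, Am]; ring
  have ng : ∀ Z, lf U (-Z) = -lf U Z := fun Z => by simp [lf]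
  have sm : ∀ (c : ℝ) Z, lf U (c • Z) = c • lf U Z := fun c Z => by simp [lf]
  rw [hs2_lf h, dot_lf h.toOn0] at h0
  refine ⟨?_, ?_⟩
  · rw [a, b, dot_lf h.toOn0, dot_lf h.toOn0, da, db, ← lf_one h.toOn0]
    refine ⟨?_, ?_, ?_, ?_, ?_, ?_, ?_, ?_, ?_, ?_, ?_, by positivity, ?_⟩
    all_goals try simp only [lf_t, lf_mul h.toOn0, ← sm, ← ng, transpose_one, Matrix.mul_one,
      Matrix.one_mul]
    · congr 1; ext k l; fin_cases k <;> fin_cases l <;> simp [Ap]
    · congr 1; ext k l; fin_cases k <;> fin_cases l <;> simp [Am]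
    · congr 1; ext k l; fin_cases k <;> fin_cases l <;> simp [Ap] <;> ring
    · congr 1; ext k l; fin_cases k <;> fin_cases l <;> simp [Am] <;> ring
    · congr 1; ext k l; fin_cases k <;> fin_cases l <;> simp [Ap, Am] <;> ring
    · simp [dot, Fin.sum_univ_four, Ap, Am] at h0; nlinarith
  · have a' : sdp o (lf U (Ap p q r + Am s t u)) = lf U (Ap p q r + Am 0 0 0) := by
      refine a.trans (congrArg _ ?_)
      ext k l; fin_cases k <;> fin_cases l <;> simp [Am]
    rw [SD, a', hs2_lf h]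
    congr 1; ext k l; fin_cases k <;> fin_cases l <;> simp [Am]

end Crest.Agent.X212.Tb46
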